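import Vale.Agent.P157.MainI
import Vale.Agent.P157.MainS

namespace Vale.Agent.Results.P157.Parisi

open Vale.Agent.P157 Filter Topology

theorem result (α : ℝ) (hα : 0 < α) (f : ℝ → ℝ) (hf : Measurable f) (B : ℝ) (hB : ∀ x, |f x| ≤ B) :
    (∃ (V : ℕ → ℝ) (L : ℝ), (∀ n, IsGLB (trialI α f n) (V n)) ∧ Tendsto V atTop (𝓝 L) ∧
      Tendsto (pressI α f) atTop (𝓝 L)) ∧
    (∃ (V : ℕ → ℝ) (L : ℝ), (∀ n, IsGLB (trialS α f n) (V n)) ∧ Tendsto V atTop (𝓝 L) ∧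
      Tendsto (pressS α f) atTop (𝓝 L)) :=
  ⟨mainI hα hf hB, mainS hα hf hB⟩

end Vale.Agent.Results.P157.Parisi
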